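import Vale.Agent.P275DG.Loc
import Vale.Agent.P275GC.St
import Vale.Agent.P275HK.Hom

/-!
P275 (helper16): degrees from arbitrary metrics, and the Chern-Weil inequality.
-/

set_option linter.all false

open scoped Matrix.Norms.Operator Topology ComplexOrder ContDiff ComplexConjugate
open Filter Set Matrix Complex Metric MeasureTheory
open Vale.Agent.P281Z.Hm Vale.Agent.P275GC Vale.Agent.P275NA Vale.Agent.P275GC.At
open Vale.Agent.P275HK (chg sff tr_br)

noncomputable section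

namespace Vale.Agent.P275DG

variable {n r : ℕ} {z : ℂ}

theorem fr_ev {S : ℂ → Submodule ℂ (Fin n → ℂ)} {t : ℂ → Mr n r} (ht : FrAt S t z) :
    ∀ᶠ x in 𝓝 z, FrAt S t x := by
  filter_upwards [ht.an.eventually_analyticAt, ev_inj ht.an ht.inj, ht.rg.eventually_nhds]
    with x a b c using ⟨a, b, c⟩

theorem fr_top (z : ℂ) : FrAt (fun _ => ⊤) (fun _ => (1 : Mr n n)) z :=
  ⟨analyticAt_const, fun x y e => by simpa using e,
    Eventually.of_forall fun _ => by rw [mulVecLin_one, LinearMap.range_id]⟩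

variable {C : Type} [TopologicalSpace C] {A : At C} {i j : Fin A.N} {g : Cy A (Mn n)}
  {k k' : Fm A (Mn n)} {S : Fm A (Submodule ℂ (Fin n → ℂ))} {t : ℂ → Mr n r}

theorem met_of (hk : A.MtM ∞ g k) (hz : z ∈ ball (0 : ℂ) A.R) (i : Fin A.N) : MetAt (k i) z :=
  ⟨(hk.sm.at hz i).of_le (ENat.LEInfty.out),
    eventually_of_mem (isOpen_ball.mem_nhds hz) (hk.pos i)⟩

theorem sub_top (hg : A.Cc g) : Sub A g n fun _ _ => ⊤ where
  fr _ z _ := ⟨_, fr_top z⟩
  tr i j z h := by
    rw [Submodule.map_top, eq_comm, LinearMap.range_eq_top]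
    exact fun v => ⟨g j i (A.tr i j z) *ᵥ v, by
      rw [mulVecLin_apply, mulVec_mulVec, hg.inv h, one_mulVec]⟩

/-- a frame seen in another chart -/
theorem fr_tr (hg : A.Cc g) (hS : Sub A g r S) (h : z ∈ A.O i j)
    (ht : FrAt (S j) t (A.tr i j z)) : FrAt (S i) (fun x => g i j x * t (A.tr i j x)) z where
  an := an_mul (hg.an h) (ht.an.comp (an_tr h))
  inj := fun x y e => ht.inj (P275HK.inj_of_det (hg.det.ne h) (by
    simpa only [mulVec_mulVec] using e))
  rg := by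
    filter_upwards [O_nhds h, (an_tr h).continuousAt.eventually ht.rg] with x a b
    rw [mulVecLin_mul, LinearMap.range_comp, b, hS.tr i j x a]

theorem gr_tr (hk : A.MtM ∞ g k) (h : z ∈ A.O i j) (t : ℂ → Mr n r) :
    gr (k i) (fun x => g i j x * t (A.tr i j x)) z = gr (k j) t (A.tr i j z) := by
  rw [gr, gr, hk.tr i j z h]
  simp only [conjTranspose_mul, Matrix.mul_assoc]

theorem cvS_eq (hk : A.MtM ∞ g k) (hz : z ∈ ball (0 : ℂ) A.R) (ht : FrAt (S i) t z) :
    cvS A r k S i z = tc (gr (k i) t) z := by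
  have h : ∃ t : ℂ → Mr n r, FrAt (S i) t z := ⟨t, ht⟩
  rw [cvS, dif_pos h]
  exact tc_frame chg (met_of hk hz i) ht.an ht.inj h.choose_spec.an h.choose_spec.inj
    ((h.choose_spec.rg.and ht.rg).mono fun _ a => a.1.trans a.2.symm)

theorem cvS_lp (hk : A.MtM ∞ g k) (hz : z ∈ ball (0 : ℂ) A.R) (ht : FrAt (S i) t z) :
    cvS A r k S i z = -lp (fun x => ld (gr (k i) t x)) z :=
  (cvS_eq hk hz ht).trans (tc_eq chg (met_gr (met_of hk hz i) ht.an ht.inj))

theorem cd_ldg (hk : A.MtM ∞ g k) (hz : z ∈ ball (0 : ℂ) A.R) (ht : FrAt (S i) t z) :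
    ContDiffAt ℝ ∞ (fun x => ld (gr (k i) t x)) z :=
  cd_ld (cd_gr (hk.sm.at hz i) ht.an) (pd_gr (hk.pos i z hz) ht.inj)

theorem sm_cvS (hk : A.MtM ∞ g k) (hS : Sub A g r S) : A.Sm ∞ (cvS A r k S) := fun i z hz => by
  obtain ⟨t, ht⟩ := hS.fr i z hz
  refine ((cd_lp (cd_ldg hk hz ht)).neg.congr_of_eventuallyEq ?_).contDiffWithinAt
  filter_upwards [isOpen_ball.mem_nhds hz, fr_ev ht] with x a b using cvS_lp hk a b

theorem dn_cvS (hg : A.Cc g) (hk : A.MtM ∞ g k) (hS : Sub A g r S) : A.Dn (cvS A r k S) :=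
  fun i j z h => by
  obtain ⟨t, ht⟩ := hS.fr j _ (tr_ball h)
  rw [cvS_eq hk h.1 (fr_tr hg hS h ht), cvS_eq hk (tr_ball h) ht, smul_eq_mul, At.d,
    ← tc_chg chg (an_tr h) (met_gr (met_of hk (tr_ball h) j) ht.an ht.inj)
      (P := fun _ => 1) analyticAt_const (by simp)]
  refine tc_congr (eventually_of_mem (O_nhds h) fun x a => ?_)
  simp only [gr_tr hk a, conjTranspose_one, Matrix.one_mul, Matrix.mul_one]

open Classical in
/-- the logarithm of the quotient of the induced metrics on the determinant -/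
def qt (r : ℕ) (k k' : Fm A (Mn n)) (S : Fm A (Submodule ℂ (Fin n → ℂ))) : Fm A ℝ := fun i z =>
  if h : ∃ t : ℂ → Mr n r, FrAt (S i) t z then
    ld (gr (k i) h.choose z) - ld (gr (k' i) h.choose z) else 0

theorem qt_eq (hk : A.MtM ∞ g k) (hk' : A.MtM ∞ g k') (hz : z ∈ ball (0 : ℂ) A.R)
    (ht : FrAt (S i) t z) : qt r k k' S i z = ld (gr (k i) t z) - ld (gr (k' i) t z) := by
  have h : ∃ t : ℂ → Mr n r, FrAt (S i) t z := ⟨t, ht⟩
  rw [qt, dif_pos h]
  exact ld_span (hk.pos i z hz) (hk'.pos i z hz) ht.inj h.choose_spec.inj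
    (h.choose_spec.rg.self_of_nhds.trans ht.rg.self_of_nhds.symm)

theorem qt_ev (hk : A.MtM ∞ g k) (hk' : A.MtM ∞ g k') (hz : z ∈ ball (0 : ℂ) A.R)
    (ht : FrAt (S i) t z) :
    qt r k k' S i =ᶠ[𝓝 z] fun x => ld (gr (k i) t x) - ld (gr (k' i) t x) := by
  filter_upwards [isOpen_ball.mem_nhds hz, fr_ev ht] with x a b using qt_eq hk hk' a b

theorem tc_top (hk : A.MtM ∞ g k) (hz : z ∈ ball (0 : ℂ) A.R) :
    cvS A n k (fun _ _ => ⊤) i z = tc (k i) z :=
  (cvS_eq hk hz (fr_top z)).trans (tc_congr (Eventually.of_forall fun x => by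
    simp only [gr, conjTranspose_one, Matrix.one_mul, Matrix.mul_one]))

/-- the determinant of a metric -/
theorem mt_det (hk : A.MtM ∞ g k) :
    A.Mt ∞ (fun i j z => (g i j z).det) fun i z => (k i z).det.re where
  sm i z hz := (P275HK.cd_re (P275HK.cd_det (hk.sm.at hz i))).contDiffWithinAt
  pos i z hz := det_pos (hk.pos i z hz)
  tr i j z h := by
    rw [hk.tr i j z h, Matrix.det_mul, Matrix.det_mul, det_conjTranspose, mul_right_comm, ← re_ofReal_mul,
      normSq_eq_conj_mul_self]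
    rfl

variable [T2Space C]

theorem st (u : Fm A ℝ) (h : A.Fn u) (h' : A.Sm ∞ u) : A.int (fun i => lp (u i)) = 0 :=
  h.int_lp (h'.of_le ENat.LEInfty.out)

/-- the integral of the curvature of a subbundle does not depend on the metric -/
theorem int_cvS (hg : A.Cc g) (hk : A.MtM ∞ g k) (hk' : A.MtM ∞ g k')
    (hS : Sub A g r S) : A.int (cvS A r k S) = A.int (cvS A r k' S) := by
  have a := st (qt r k k' S) (fun i j z h => by
    obtain ⟨t, ht⟩ := hS.fr j _ (tr_ball h)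
    rw [qt_eq hk hk' h.1 (fr_tr hg hS h ht), qt_eq hk hk' (tr_ball h) ht, gr_tr hk h, gr_tr hk' h])
    fun i z hz => by
      obtain ⟨t, ht⟩ := hS.fr i z hz
      exact (((cd_ldg hk hz ht).sub (cd_ldg hk' hz ht)).congr_of_eventuallyEq
        (qt_ev hk hk' hz ht)).contDiffWithinAt
  rw [eq_comm, ← sub_eq_zero, ← int_sub (sm_cvS hk' hS).ct.in (sm_cvS hk hS).ct.in, ← a]
  refine int_congr' fun i z hz => ?_
  obtain ⟨t, ht⟩ := hS.fr i z hz
  rw [lp_congr (qt_ev hk hk' hz ht), lp_sub (cd_ldg hk hz ht) (cd_ldg hk' hz ht), cvS_lp hk hz ht,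
    cvS_lp hk' hz ht]
  ring

/-- the degree of a line bundle from any metric -/
theorem deg_mt {l : Cy A ℂ} {h : Fm A ℝ} (hl : A.Cc l) (hh : A.Mt ∞ l h) :
    Real.pi⁻¹ * A.int (fun i z => -lp (fun x => Real.log (h i x)) z) = A.deg l := by
  have c : ∀ {h : Fm A ℝ}, A.Mt ∞ l h → ∀ i, ∀ z ∈ ball (0 : ℂ) A.R,
      ContDiffAt ℝ ∞ (fun x => Real.log (h i x)) z := fun hh i z hz =>
    (hh.sm.at hz i).log (hh.pos i z hz).ne'
  have d : ∀ {h : Fm A ℝ}, A.Mt ∞ l h → A.In fun i z => -lp (fun x => Real.log (h i x)) z :=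
    fun hh => Ct.in fun i z hz => (cd_lp (c hh i z hz)).neg.continuousAt.continuousWithinAt
  have a := st (fun i z => Real.log (h i z) - Real.log (A.mt l i z)) (fun i j z hz => by
    have e := (normSq_pos.2 (hl.ne hz)).ne'
    simp only [hh.tr i j z hz, hl.mt.tr i j z hz, Real.log_mul e (hh.pos i z hz.1).ne',
      Real.log_mul e (hl.mt.pos i z hz.1).ne', add_sub_add_left_eq_sub])
    fun i z hz => ((c hh i z hz).sub (c hl.mt i z hz)).contDiffWithinAt
  refine congrArg _ ?_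
  show _ = A.int fun i z => -lp (fun x => Real.log (A.mt l i x)) z
  rw [eq_comm, ← sub_eq_zero, ← int_sub (d hl.mt) (d hh), ← a]
  refine int_congr' fun i z hz => ?_
  rw [lp_sub (c hh i z hz) (c hl.mt i z hz)]
  ring

theorem deg (A : At C) : DEG A := fun n g k hg hk => by
  refine ⟨hg.mtM, fun i j z h => ?_, fun i => ((sm_cvS hk (sub_top hg)).ct i).congr fun z hz =>
    (tc_top hk hz).symm, ?_, fun r S hS => ⟨fun i z hz t ht => cvS_eq hk hz ht, dn_cvS hg hk hS,
      (sm_cvS hk hS).ct, congrArg _ (int_cvS hg hk hg.mtM hS)⟩⟩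
  · have := dn_cvS hg hk (sub_top hg) i j z h
    rwa [tc_top hk h.1, tc_top hk (tr_ball h)] at this
  · exact (congrArg _ (int_congr' fun i z hz => tc_eq chg (met_of hk hz i))).trans
      (deg_mt hg.det (mt_det hk))

theorem cw [Nonempty C] (A : At C) : CW A := fun n l w g a h c hn hw ha hh he => by
  obtain ⟨-, -, -, h1, h2⟩ := deg A n g h ha.cc hh
  have v : 0 < A.int A.ρ := vol_pos
  have p := Real.pi_pos
  have n0 : (0 : ℝ) < n := mod_cast hn
  have e : A.degM g = Real.pi⁻¹ * (n * c * A.int A.ρ) := by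
    rw [← h1, ← int_mul (n * c) A.ρ]
    refine congrArg _ (int_congr' fun i z hz => ?_)
    have := congrArg (fun x => (trace x).re) (he i z hz)
    simp only [HK, hk, trace_add, tr_br, add_zero, trace_smul, trace_one, Fintype.card_fin,
      smul_eq_mul, re_ofReal_mul, natCast_re] at this
    rw [this]; ring
  refine ⟨by rw [ec, e]; field_simp, fun r S hS hi => ?_⟩
  obtain ⟨f, -, ct, h3⟩ := h2 r S hS
  have b : A.int (cvS A r h S) ≤ r * c * A.int A.ρ := by
    rw [← int_mul (r * c) A.ρ]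
    refine int_mono ct.in (Ct.in fun i => continuousOn_const.mul (sm_ρ.ct i)) fun i z hz => ?_
    have hz' := mem_of_le (A := A) hz.le
    obtain ⟨t, ht⟩ := hS.fr i z hz'
    obtain ⟨Q, hQ⟩ := ex_fac (s := sa A w a i z * t z) (t := t z) fun v => by
      rw [ht.rg.self_of_nhds, ← mulVec_mulVec, sa, smul_mulVec]
      exact Submodule.smul_mem _ _ (hi i z hz' _
        (ht.rg.self_of_nhds ▸ LinearMap.mem_range_self (t z).mulVecLin v))
    rw [f i z hz' t ht]
    refine (sff _ _ (h i) (sa A w a i) t Q z (met_of hh hz' i) ht.an ht.inj hQ).2.trans_eq ?_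
    rw [show hk (h i) (sa A w a i) z = _ from he i z hz', Matrix.mul_smul, Matrix.mul_one,
      trace_smul, tr_pr (hh.pos i z hz') ht.inj, smul_eq_mul, re_ofReal_mul, natCast_re,
      Fintype.card_fin]
    ring
  rw [← h3, e]
  calc _ ≤ n * (Real.pi⁻¹ * (r * c * A.int A.ρ)) := by gcongr
    _ = _ := by ring

end Vale.Agent.P275DG
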