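import Vale.Agent.P275NA.Glob
import Vale.Agent.P275GC.Pu

/-!
P275 (helper16): degrees of bundles and subbundles from arbitrary metrics, local part.
-/

set_option linter.all false

open scoped Matrix.Norms.Operator Topology ComplexOrder ContDiff ComplexConjugate
open Filter Set Matrix Complex Metric MeasureTheory
open Vale.Agent.P281Z.Hm Vale.Agent.P275GC Vale.Agent.P275NA

noncomputable section

namespace Vale.Agent.P275DG

section calculus

variable {F : Type} [NormedAddCommGroup F] [NormedSpace ℝ F] [NormedSpace ℂ F]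
  [IsScalarTower ℝ ℂ F] {f : ℂ → F} {u v : ℂ → ℝ} {z : ℂ}

theorem cd_fd (hf : ContDiffAt ℝ ∞ f z) (e : ℂ) : ContDiffAt ℝ ∞ (fun x => fderiv ℝ f x e) z :=
  (hf.fderiv_right (m := ∞) le_rfl).clm_apply contDiffAt_const

theorem cd_dz (hf : ContDiffAt ℝ ∞ f z) : ContDiffAt ℝ ∞ (dz f) z :=
  ((cd_fd hf 1).sub ((cd_fd hf _).const_smul I)).const_smul (2⁻¹ : ℂ)

theorem cd_db (hf : ContDiffAt ℝ ∞ f z) : ContDiffAt ℝ ∞ (db f) z :=
  ((cd_fd hf 1).add ((cd_fd hf _).const_smul I)).const_smul (2⁻¹ : ℂ)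

theorem cd_lp (hu : ContDiffAt ℝ ∞ u z) : ContDiffAt ℝ ∞ (lp u) z :=
  reCLM.contDiff.contDiffAt.comp z (cd_db (cd_dz (cd_ofReal hu)))

theorem lp_congr (h : u =ᶠ[𝓝 z] v) : lp u z = lp v z := by
  have e : (fun x => (u x : ℂ)) =ᶠ[𝓝 z] fun x => (v x : ℂ) := h.mono fun x a => by
    simp only [a]
  rw [P275NA.lp, P275NA.lp, db, db, wb_congr (wd_congr_ev e 1)]

theorem lp_sub (hu : ContDiffAt ℝ ∞ u z) (hv : ContDiffAt ℝ ∞ v z) :
    lp (fun x => u x - v x) z = lp u z - lp v z := by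
  have e : dz (fun x => ((u x - v x : ℝ) : ℂ)) =ᶠ[𝓝 z]
      fun y => dz (fun x => (u x : ℂ)) y - dz (fun x => (v x : ℂ)) y := by
    filter_upwards [(cd_ofReal (hu.of_le (m := 1) (mod_cast le_top))).eventually (by simp),
      (cd_ofReal (hv.of_le (m := 1) (mod_cast le_top))).eventually (by simp)] with y a b
    simp only [ofReal_sub]
    exact wd_sub (a.differentiableAt one_ne_zero) (b.differentiableAt one_ne_zero) 1
  rw [P275NA.lp, P275NA.lp, P275NA.lp, db, wb_congr e, wb_sub ((cd_dz (cd_ofReal hu)).differentiableAt (by simp))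
    ((cd_dz (cd_ofReal hv)).differentiableAt (by simp)), sub_re]

end calculus

section matrices

variable {m n : Type} [Fintype m] [DecidableEq m] [Fintype n] [DecidableEq n] {z : ℂ}
  {h h' : ℂ → Mx n} {t t' : ℂ → Matrix n m ℂ}

/-- the logarithm of the determinant -/
def ld (h : Mx n) : ℝ := Real.log h.det.re

/-- the trace of the curvature -/
def tc (h : ℂ → Mx n) (z : ℂ) : ℝ := (trace (cv h z)).re

/-- the Gram matrix -/
def gr (h : ℂ → Mx n) (t : ℂ → Matrix n m ℂ) (x : ℂ) : Mx m := (t x)ᴴ * h x * t x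

theorem det_pos {h : Mx n} (hh : h.PosDef) : 0 < h.det.re := (Complex.pos_iff.1 hh.det_pos).1

theorem cv_congr (e : h =ᶠ[𝓝 z] h') : cv h z = cv h' z := by
  have e' : cn h =ᶠ[𝓝 z] cn h' := by
    filter_upwards [e, wd_congr_ev e 1] with x a b
    rw [cn, cn, a, dz, b]
  rw [cv, cv, db, db, wb_congr e']

theorem tc_congr (e : h =ᶠ[𝓝 z] h') : tc h z = tc h' z := by rw [tc, tc, cv_congr e]

theorem cd_ld {k : WithTop ℕ∞} (hh : ContDiffAt ℝ k h z) (hp : (h z).PosDef) :
    ContDiffAt ℝ k (fun x => ld (h x)) z := by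
  have a : AnalyticAt ℝ (fun x : Mx n => x.det.re) (h z) := an_re (an_det analyticAt_id)
  exact (a.contDiffAt.comp z hh).log (det_pos hp).ne'

theorem cd_gr {k : WithTop ℕ∞} (hh : ContDiffAt ℝ k h z) (ht : AnalyticAt ℂ t z) :
    ContDiffAt ℝ k (gr h t) z := by
  have a : AnalyticAt ℝ (fun p : Matrix n m ℂ × Mx n => p.1ᴴ * p.2 * p.1) (t z, h z) :=
    an_mul (an_mul (an_ct analyticAt_fst) analyticAt_snd) analyticAt_fst
  exact a.contDiffAt.comp z ((cd_an ht).prodMk hh)

theorem pd_gr {h : Mx n} {t : Matrix n m ℂ} (hh : h.PosDef) (ht : Function.Injective t.mulVec) :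
    (tᴴ * h * t).PosDef := hh.conjTranspose_mul_mul_same ht

theorem inj_of_det {L : Matrix m n ℂ} {t : Matrix n m ℂ} (h : (L * t).det ≠ 0) :
    Function.Injective t.mulVec := fun x y e =>
  mulVec_injective_iff_isUnit.2 ((isUnit_iff_isUnit_det _).2 h.isUnit)
    (by simp only [← mulVec_mulVec, e])

theorem det_ct {t : Matrix n m ℂ} (ht : Function.Injective t.mulVec) : (tᴴ * t).det ≠ 0 :=
  (PosDef.conjTranspose_mul_self t ht).det_pos.ne'

theorem ev_det (ht : AnalyticAt ℂ t z) (hi : Function.Injective (t z).mulVec) :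
    ∀ᶠ x in 𝓝 z, ((t z)ᴴ * t x).det ≠ 0 :=
  (an_det (an_mul analyticAt_const ht)).continuousAt.eventually_ne (det_ct hi)

theorem ev_inj (ht : AnalyticAt ℂ t z) (hi : Function.Injective (t z).mulVec) :
    ∀ᶠ x in 𝓝 z, Function.Injective (t x).mulVec := (ev_det ht hi).mono fun _ => inj_of_det

theorem ex_fac {l : Type} [Fintype l] [DecidableEq l] {t : Matrix n m ℂ} {s : Matrix n l ℂ}
    (h : ∀ v, s *ᵥ v ∈ LinearMap.range t.mulVecLin) : ∃ Q : Matrix m l ℂ, s = t * Q := by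
  choose q hq using fun j : l => h (Pi.single j 1)
  refine ⟨Matrix.of fun i j => q j i, ext fun i j => ?_⟩
  have := congrFun (hq j) i
  rw [mulVec_single_one, mulVecLin_apply] at this
  exact this.symm

theorem det_fac {t s : Matrix n m ℂ} {Q : Mx m} (hs : Function.Injective s.mulVec)
    (e : s = t * Q) : Q.det ≠ 0 :=
  ((isUnit_iff_isUnit_det _).1 (mulVec_injective_iff_isUnit.1 fun x y a => hs
    (by simp only [e, ← mulVec_mulVec, a]))).ne_zero

theorem gr_fac (h : Mx n) (t : Matrix n m ℂ) (Q : Mx m) :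
    (t * Q)ᴴ * h * (t * Q) = Qᴴ * (tᴴ * h * t) * Q := by
  simp only [conjTranspose_mul, Matrix.mul_assoc]

theorem ld_cg {h Q : Mx n} (hh : h.PosDef) (hQ : Q.det ≠ 0) :
    ld (Qᴴ * h * Q) = ld h + Real.log (normSq Q.det) := by
  have e : (Qᴴ * h * Q).det = h.det * (normSq Q.det : ℝ) := by
    rw [det_mul, det_mul, det_conjTranspose, normSq_eq_conj_mul_self]
    exact (mul_right_comm _ _ _).trans (mul_comm _ _)
  rw [ld, e, re_mul_ofReal, Real.log_mul (det_pos hh).ne' (normSq_pos.2 hQ).ne', ld]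

/-- the quotient of the Gram determinants of two metrics depends only on the span -/
theorem ld_span {h k : Mx n} {t s : Matrix n m ℂ} (hh : h.PosDef) (hk : k.PosDef)
    (ht : Function.Injective t.mulVec) (hs : Function.Injective s.mulVec)
    (e : LinearMap.range s.mulVecLin = LinearMap.range t.mulVecLin) :
    ld (sᴴ * h * s) - ld (sᴴ * k * s) = ld (tᴴ * h * t) - ld (tᴴ * k * t) := by
  obtain ⟨Q, a⟩ := ex_fac (s := s) (t := t) fun v => e ▸ LinearMap.mem_range_self _ v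
  have b := det_fac hs a
  rw [a, gr_fac, gr_fac, ld_cg (pd_gr hh ht) b, ld_cg (pd_gr hk ht) b]
  ring

theorem met_gr (hh : MetAt h z) (ht : AnalyticAt ℂ t z) (hi : Function.Injective (t z).mulVec) :
    MetAt (gr h t) z :=
  ⟨cd_gr hh.c2 ht, (hh.pos.and (ev_inj ht hi)).mono fun _ a => pd_gr a.1 a.2⟩

theorem tc_eq (chg : CHG) (hh : MetAt h z) : tc h z = -lp (fun x => ld (h x)) z :=
  neg_eq_iff_eq_neg.1 (chg n h h (fun _ => 1) id z analyticAt_id hh analyticAt_const
    (by simp)).2.2.2.2.symm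

theorem tc_chg (chg : CHG) {P : ℂ → Mx n} {φ : ℂ → ℂ} (hφ : AnalyticAt ℂ φ z) (hh : MetAt h (φ z))
    (hP : AnalyticAt ℂ P z) (h0 : (P z).det ≠ 0) :
    tc (fun x => (P x)ᴴ * h (φ x) * P x) z = normSq (deriv φ z) * tc h (φ z) := by
  rw [tc, (chg n h h P φ z hφ hh hP h0).2.1, trace_smul, trace_mul_cycle,
    mul_nonsing_inv _ h0.isUnit, Matrix.one_mul, smul_eq_mul, re_ofReal_mul, normSq_eq_norm_sq, tc]

/-- independence of the frame -/
theorem tc_frame (chg : CHG) (hh : MetAt h z) (ht : AnalyticAt ℂ t z)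
    (hi : Function.Injective (t z).mulVec) (ht' : AnalyticAt ℂ t' z)
    (hi' : Function.Injective (t' z).mulVec)
    (e : ∀ᶠ x in 𝓝 z, LinearMap.range (t' x).mulVecLin = LinearMap.range (t x).mulVecLin) :
    tc (gr h t') z = tc (gr h t) z := by
  have a : ∀ᶠ x in 𝓝 z, t' x = t x * (((t z)ᴴ * t x)⁻¹ * ((t z)ᴴ * t' x)) := by
    filter_upwards [e, ev_det ht hi] with x b c
    obtain ⟨Q, d⟩ := ex_fac (s := t' x) (t := t x) fun v => b ▸ LinearMap.mem_range_self _ v
    rw [d, ← Matrix.mul_assoc (t z)ᴴ, nonsing_inv_mul_cancel_left _ _ c.isUnit]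
  have b := tc_chg chg (φ := id) analyticAt_id (met_gr hh ht hi)
    (an_mul (an_inv (an_mul analyticAt_const ht) (det_ct hi)) (an_mul analyticAt_const ht'))
    (det_fac hi' a.self_of_nhds)
  rw [deriv_id, map_one, one_mul] at b
  refine (tc_congr (a.mono fun x c => ?_)).trans b
  exact (congrArg (fun s => sᴴ * h x * s) c).trans (gr_fac _ _ _)

/-- the trace of the projection -/
theorem tr_pr {h : Mx n} {t : Matrix n m ℂ} (hh : h.PosDef) (ht : Function.Injective t.mulVec) :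
    trace (pr h t) = Fintype.card m := by
  rw [pr, Matrix.mul_assoc, Matrix.mul_assoc, trace_mul_comm, Matrix.mul_assoc,
    nonsing_inv_mul _ (pd_gr hh ht).det_pos.ne'.isUnit, trace_one]

end matrices

end Vale.Agent.P275DG
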